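import Crest.Agent.X212.Ell97.Main
import Crest.Agent.X212.Map77.Cls
import Crest.Agent.X212.Crt72.Props
import Crest.Agent.X212.Std94.Smo
import Crest.Agent.X212.Wz78.Par
import Crest.Agent.X212.Abel74.Gap

-- ▼ part X212/Lin97/Gen
section

/-! Row 212, CRIT-LIN (helper97): generic lemmas on closed manifolds. -/

set_option autoImplicit false
set_option linter.unusedSectionVars false
noncomputable section
open scoped Manifold ContDiff Topology InnerProductSpace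
open MeasureTheory Set Function Filter Module

namespace Crest.Agent.X212.Lin97
open An An.Pre Sob92 Ell97

variable {E : Type} [NormedAddCommGroup E] [NormedSpace ℝ E] [FiniteDimensional ℝ E]
  [MeasurableSpace E] [BorelSpace E]
  {HM : Type} [TopologicalSpace HM] {I : ModelWithCorners ℝ E HM}
  {M : Type} [TopologicalSpace M] [ChartedSpace HM M] [IsManifold I ∞ M]
  [MeasurableSpace M] {ι : Type} [Fintype ι]
  {U U' V W : Type} [NormedAddCommGroup U] [InnerProductSpace ℝ U]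
  [NormedAddCommGroup U'] [InnerProductSpace ℝ U']
  [NormedAddCommGroup V] [InnerProductSpace ℝ V] [NormedAddCommGroup W] [InnerProductSpace ℝ W]
  [T2Space M] [BorelSpace M] [SecondCountableTopology M]

section rep
variable {F : Pre I M ι} {k j : ℕ} {p : M → V →L[ℝ] V} {q : M → W →L[ℝ] W} {r : M → U →L[ℝ] U}
  {r' : M → U' →L[ℝ] U'}

theorem lift_eq {A : F.H k p →L[ℝ] F.H j q} {T T' : (M → V) → M → W} (h : F.Rep A T')
    (e : ∀ u : Sec I p, T' u.1 = T u.1) : F.lift k j p q T = A := (RepT_congr h e).liftT_eq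

theorem rep_lift {A : F.H k p →L[ℝ] F.H j q} {T T' : (M → V) → M → W} (h : F.Rep A T')
    (e : ∀ u : Sec I p, T' u.1 = T u.1) : F.Rep (F.lift k j p q T) T :=
  (lift_eq h e).symm ▸ RepT_congr h e

/-- pointwise identities for `L²` products -/
theorem inner_rep {A : F.H k p →L[ℝ] F.H 0 r} {B : F.H j q →L[ℝ] F.H 0 r}
    {A' : F.H k p →L[ℝ] F.H 0 r'} {B' : F.H j q →L[ℝ] F.H 0 r'} {T : (M → V) → M → U}
    {S : (M → W) → M → U} {T' : (M → V) → M → U'} {S' : (M → W) → M → U'} (hA : F.Rep A T)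
    (hB : F.Rep B S) (hA' : F.Rep A' T') (hB' : F.Rep B' S') (c : ℝ)
    (h : ∀ (u : Sec I p) (v : Sec I q) x, ⟪T u.1 x, S v.1 x⟫_ℝ = c * ⟪T' u.1 x, S' v.1 x⟫_ℝ)
    (x : F.H k p) (y : F.H j q) : ⟪A x, B y⟫_ℝ = c * ⟪A' x, B' y⟫_ℝ := by
  induction x, y using H_ind₂ with
  | hP => exact isClosed_eq (by fun_prop) (by fun_prop)
  | h u v =>
    simp only [RepT_toH hA, RepT_toH hB, RepT_toH hA', RepT_toH hB', inner_toH, ip, h,
      integral_const_mul]

end rep

variable [FiniteDimensional ℝ V] [FiniteDimensional ℝ W] [I.Boundaryless]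
  {F : Fr I M ι} {A : Op M ι V W} {C C' : ℕ → ℝ}

/-- the formal adjoint is determined by the integration by parts formula -/
theorem adj_eq (hF : F.Tame C) (hA : A.Good F C') (w : Sec I A.q) (v : Sec I A.p)
    (h : ∀ u : Sec I A.p, F.ip 0 (A.app F u.1) w.1 = F.ip 0 u.1 v.1) :
    (A.adj F).app F w.1 = v.1 := by
  obtain ⟨_, hg⟩ := good_adj hF hA
  have e : F.toH 0 A.p (LS hg w) = F.toH 0 A.p v := H_ext fun u =>
    (inner_toH _ _ _ _ _).trans (((F.ip_comm _ _ _).trans ((adj_ip hA u (toT _ w)).symm.trans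
      ((h u).trans (F.ip_comm _ _ _)))).trans (inner_toH _ _ _ _ _).symm)
  exact congrArg Subtype.val (toH_inj F 0 _ e)

/-- symmetric operators of Dirac type have index zero -/
theorem fr_symm [CompactSpace M] {p B : M → V →L[ℝ] V} {σ : ι → M → V →L[ℝ] V} (hF : F.Tame C)
    (hA : (⟨p, p, σ, B⟩ : Op M ι V V).Good F C') (hc : (⟨p, p, σ, B⟩ : Op M ι V V).Cliff F)
    (hs : ∀ u w : Sec I p, F.ip 0 (F.op σ B u.1) w.1 = F.ip 0 u.1 (F.op σ B w.1)) (k : ℕ) :
    Fred93.Fr (F.opH k p p σ B) 0 := by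
  have e : kerS F ((⟨p, p, σ, B⟩ : Op M ι V V).adj F) = kerS F ⟨p, p, σ, B⟩ :=
    Submodule.ext fun w => by
      rw [mem_kerS, adj_eq hF hA w (LS hA w) fun u => hs u w]
      rfl
  exact (fr hF hA hc k).cast (by rw [e]; exact sub_self _)

end Crest.Agent.X212.Lin97
end
end

-- ▼ part X212/Lin97/Y
section

/-! Row 212, CRIT-LIN (helper97): the bundles on the cross-section, the gauge operator. -/

set_option autoImplicit false
set_option linter.unusedSectionVars false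
noncomputable section
open scoped Manifold ContDiff Topology InnerProductSpace
open MeasureTheory Set Function Filter

namespace Crest.Agent.X212.Lin97
open An An.Pre Cyf70 Nd18 Crt72 Sob92 Map77
open Wz78 (nab nabE SA)

variable {E3 : Type} [NormedAddCommGroup E3] [NormedSpace ℝ E3] [FiniteDimensional ℝ E3]
  [MeasurableSpace E3] [BorelSpace E3]
  {H3 : Type} [TopologicalSpace H3] {I3 : ModelWithCorners ℝ E3 H3} [I3.Boundaryless]
  {Y : Type} [TopologicalSpace Y] [ChartedSpace H3 Y] [IsManifold I3 ∞ Y] [T2Space Y]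
  [MeasurableSpace Y] [BorelSpace Y] [SecondCountableTopology Y] [CompactSpace Y]
  {κ : Type} [Fintype κ] {lam : Type} [Fintype lam]
  {D : YD I3 Y κ lam} {β : YC Y κ lam} {x : Y}

section lin
variable {A : Type} [NormedAddCommGroup A] [InnerProductSpace ℝ A]
@[simp] theorem up_none (α : Fm κ A) : up κ A α none = 0 := rfl
@[simp] theorem up_some (α : Fm κ A) (a : κ) : up κ A α (some a) = α a := rfl
@[simp] theorem dw_apply (α : Fm (Option κ) A) (a : κ) : dw κ A α a = α (some a) := rfl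
@[simp] theorem onv_apply (T : CL A A) (α : Fm κ A) (a : κ) : onv κ T α a = T (α a) := rfl
@[simp] theorem ij_none (v : A) : ij A (none : Option κ) v none = v := by simp [ij]
@[simp] theorem ij_some (v : A) (a : κ) : ij A (none : Option κ) v (some a) = 0 := by simp [ij]
end lin

theorem sec_mk {V : Type} [NormedAddCommGroup V] [InnerProductSpace ℝ V] {p : Y → V →L[ℝ] V}
    {u : Y → V} (hu : Sm I3 u) (h : ∀ x, p x (u x) = u x) : u ∈ Sec I3 p :=
  ⟨hu, HasCompactSupport.of_compactSpace u, h⟩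

theorem prj_pg : Prj β.m.pg := ⟨Wz78.pg_pg, Wz78.inner_pg⟩

theorem prj_pc : Prj (pc D β) :=
  ⟨fun x => idx_idem (Wz78.frPr D.F x).idem (prj_pg.idem x),
    fun x => idx_symm (Wz78.frPr D.F x).symm (prj_pg.symm x)⟩

theorem pc_g {α : Fm κ β.m.A} (h : pc D β x α = α) (a : κ) : α a ∈ β.m.gS x := by
  rw [← h, pc, ← T_idx (prj_pg.idem x)]
  exact Wz78.pg_mem x _

theorem pc_P {α : Fm κ β.m.A} (h : pc D β x α = α) (a : κ) : ∑ b, D.F.P a b x • α b = α a := by
  conv_rhs => rw [← h, pc, idx_apply]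
  simp only [Wz78.pg_of_mem (pc_g h _)]

theorem pc_fix {α : Fm κ β.m.A} (h1 : ∀ a, α a ∈ β.m.gS x)
    (h2 : ∀ a, ∑ b, D.F.P a b x • α b = α a) : pc D β x α = α :=
  fm_ext fun a => by simp only [pc, idx_apply, Wz78.pg_of_mem (h1 _), h2]

theorem pg_g {ξ : β.m.A} (h : β.m.pg x ξ = ξ) : ξ ∈ β.m.gS x := h ▸ Wz78.pg_mem x ξ

theorem fa_ph (w : Cf (Option κ) (Fin β.m.N)) (a : Option κ) :
    fa (ph D β x w) a = ∑ b, cP D.F.P a b (x, 0) • β.m.pg x (fa w b) :=
  (congrArg (fun α : Fm (Option κ) β.m.A => α a) (f2_ps x w)).trans (idx_apply _ _ _ a)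

theorem fa_ph_none (w : Cf (Option κ) (Fin β.m.N)) :
    fa (ph D β x w) none = β.m.pg x (fa w none) := by
  simp [fa_ph, cP]

theorem fa_ph_some (w : Cf (Option κ) (Fin β.m.N)) (a : κ) :
    fa (ph D β x w) (some a) = pc D β x (dw κ _ (fa w)) a := by
  simp [fa_ph, cP, pc]

theorem fp_ph (w : Cf (Option κ) (Fin β.m.N)) : fp (ph D β x w) = pv D β x (fp w) := s2_ps _ _

theorem nab_cy {V : Type} [NormedAddCommGroup V] [NormedSpace ℝ V] (A : Option κ → Y → V →L[ℝ] V)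
    {u : Y → V} (hu : Sm I3 u) (a : κ) (z : Y × ℝ) :
    nab (IC I3) D.Z.e (fun a z => A a z.1) (some a) (fun z => u z.1) z =
      nab I3 D.F.e (fun a => A (some a)) a u z.1 :=
  congrArg (· + _) (congrFun (D_some_fst D.F.toPre hu a) z)

theorem nab_cy0 {V : Type} [NormedAddCommGroup V] [NormedSpace ℝ V] (A : Option κ → Y → V →L[ℝ] V)
    {u : Y → V} (hu : Sm I3 u) (z : Y × ℝ) :
    nab (IC I3) D.Z.e (fun a z => A a z.1) none (fun z => u z.1) z = A none z.1 (u z.1) :=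
  (congrArg (· + _) (congrFun (D_none_fst D.F.toPre hu) z)).trans (zero_add _)

variable (D β) in
/-- the standing hypotheses at a base point -/
structure Hy : Prop extends HY D, D.Adm β

namespace Hy
variable (h : Hy D β)
include h

theorem hB : D.B.OK (IC I3) := h.ok.B
theorem hm : (cy β).m.OK (IC I3) D.B := h.adm.ok
theorem hC : (cy β).m.IsConn D.B D.G (cy β).W := h.adm.conn
theorem px (x : Y) : Std94.PMx D.B (cy β).m (x, 0) := Std94.pmx h.hm _
theorem tame : ∃ C, D.F.Tame C := Cht98.exists_tame D.F (by rw [h.dim]; norm_num)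
theorem sup : Sup D.F.toPre (h.tame.choose 0) := Sup.of_tame h.tame.choose_spec

theorem sm_pg : Sm I3 β.m.pg := sm_slice_fst (Std94.sm_pg h.hB h.hm) 0
theorem sm_pv : Sm I3 (pv D β) := sm_slice_fst (Std94.sm_pp h.hB h.hm) 0
theorem sm_Φ : Sm I3 β.Φ := sm_slice_fst h.adm.sm 0
theorem sm_cn (a : κ) : Sm I3 (cn β a) := sm_slice_fst (h.hC.cc.sm (some a)) 0
theorem sm_an (a : κ) : Sm I3 (an β a) := fun x => SA.clm Wz78.adcL (h.sm_cn a x)
theorem cb_pg : D.F.Cb β.m.pg := Cb_of_compact h.sm_pg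
theorem cb_pv : D.F.Cb (pv D β) := Cb_of_compact h.sm_pv
theorem cb_Φ : D.F.Cb β.Φ := Cb_of_compact h.sm_Φ
theorem cb_pc : D.F.Cb (pc D β) :=
  Cls.idx (K := cb (fun _ : Unit => D.F.toPre) univ) (S := fun _ x a b => D.F.P a b x)
    (fun a b _ _ => Cb_of_compact (D.F.P_sm a b)) (fun _ _ => h.cb_pg) () trivial
theorem sk_an (a : κ) (x : Y) : Skw (an β a x) := Wz78.adc_skw (h.hC.sk (some a) (x, 0))

theorem con_an : Wz78.Con I3 D.F.P (an β) := ⟨h.sm_an, fun a x => by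
  have := (Wz78.con_adW h.hC).proj (some a) (x, 0)
  rw [Fintype.sum_option] at this
  exact ((zero_add _).symm.trans (congrArg (· + _) (zero_smul ℝ _).symm)).trans this⟩

theorem prj_pv : Prj (pv D β) := by
  refine ⟨fun x v => ?_, fun x => (Std94.pp_sym h.hB (h.px x) :)⟩
  have e : pv D β x * pv D β x = pv D β x := (Std94.pp_pp h.hB (h.px x) :)
  rw [← mul_apply_eq_comp, e]

theorem pv_Φ (x : Y) : pv D β x (β.Φ x) = β.Φ x := h.adm.pos (x, 0)

theorem p_pv {v : β.m.V} (hv : pv D β x v = v) : β.m.p x v = v := by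
  have e : β.m.p x * pv D β x = pv D β x := (Std94.p_pp h.hB (h.px x) :)
  rw [← hv, ← mul_apply_eq_comp, e]

theorem pv_g {ξ : β.m.A} (hξ : ξ ∈ β.m.gS x) {v : β.m.V} (hv : pv D β x v = v) :
    pv D β x (opL ξ v) = opL ξ v := by
  have e : opL ξ * pv D β x = pv D β x * opL ξ := Std94.g_pp h.hB (h.px x) hξ
  rw [← mul_apply_eq_comp, ← e, mul_apply_eq_comp, hv]

theorem pv_J {v : β.m.V} (hv : pv D β x v = v) : pv D β x (β.m.J v) = β.m.J v := by
  have e : β.m.J * pv D β x = pv D β x * β.m.J := (Std94.J_pp (h.px x) :)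
  rw [← mul_apply_eq_comp, ← e, mul_apply_eq_comp, hv]

theorem nab_g {ξ : Y → β.m.A} (hs : Sm I3 ξ) (hg : ∀ y, ξ y ∈ β.m.gS y) (a : κ) (x : Y) :
    nab I3 D.F.e (an β) a ξ x ∈ β.m.gS x :=
  nab_cy (D := D) (β.m.adW β.W) hs a (x, 0) ▸
    Wz78.nab_mem_g h.hm h.hC (some a) (sm_fst hs (x, 0)) fun z => hg z.1

theorem pc_dga (ξ : Sec I3 β.m.pg) (x : Y) : pc D β x (dga D β ξ.1 x) = dga D β ξ.1 x :=
  pc_fix (fun a => Submodule.neg_mem _ (h.nab_g ξ.2.1 (fun y => pg_g (ξ.2.2.2 y)) a x)) fun a => by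
    simp only [dga, smul_neg, Finset.sum_neg_distrib, (Wz78.frm D.F).projN h.con_an]

theorem pv_dgp (ξ : Sec I3 β.m.pg) (x : Y) : pv D β x (dgp β ξ.1 x) = dgp β ξ.1 x :=
  h.pv_g (pg_g (ξ.2.2.2 x)) (h.pv_Φ x)

/-- variations are admissible -/
theorem conn_cf (y : SP D β) : (cy β).m.IsConn D.B D.G (cy (cf y)).W := by
  have H := h.hm
  have C := h.hC
  have hg : ∀ (z : Y × ℝ) a, up κ _ (y.1.1 z.1) a ∈ β.m.gS z.1 := fun z a => by
    cases a with
    | none => exact Submodule.zero_mem _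
    | some a => exact pc_g (y.1.2.2.2 z.1) a
  have c : Wz78.Con (IC I3) D.B.P fun a z => opL (up κ _ (y.1.1 z.1) a) := ⟨fun a z =>
    SA.clm (opL ∘L pj _ a ∘L up κ _) (sm_fst y.1.2.1 z), fun a z => by
      rw [Fintype.sum_option]
      cases a with
      | none => simp [YD.B, cP]
      | some a =>
        simp only [YD.B, cP, up_none, map_zero, smul_zero, zero_add, up_some]
        simp only [← map_smul, ← map_sum, pc_P (y.1.2.2.2 z.1)]⟩
  refine ⟨C.cc.addA c (fun a z => (Wz78.g_p' H (hg z a)).trans (Wz78.g_p (hg z a)).symm)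
    fun a b z => (Wz78.g_ρ (hg z a) b).symm, fun a z v w => ?_, fun a z => ?_, fun a z s => ?_⟩
  · have h1 : ⟪β.W a z.1 v, w⟫_ℝ = -⟪v, β.W a z.1 w⟫_ℝ := C.sk a z v w
    have h2 := Wz78.g_skw (hg z a) v w
    exact (inner_add_left _ _ _).trans ((congrArg₂ (· + ·) h1 h2).trans
      ((neg_add _ _).symm.trans (congrArg Neg.neg (inner_add_right _ _ _).symm)))
  · have h1 : β.m.J * β.W a z.1 = β.W a z.1 * β.m.J := C.J a z
    have e : β.m.J * (β.W a z.1 + opL (up κ _ (y.1.1 z.1) a)) =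
        (β.W a z.1 + opL (up κ _ (y.1.1 z.1) a)) * β.m.J := by
      rw [mul_add, add_mul, h1, Wz78.g_J (hg z a)]
    exact e
  · refine Eq.trans (congrArg (_ + ·) ?_) (C.j a z s)
    have e : (β.W a z.1 + opL (up κ _ (y.1.1 z.1) a)) * β.m.j z.1 s -
        β.m.j z.1 s * (β.W a z.1 + opL (up κ _ (y.1.1 z.1) a)) =
        β.W a z.1 * β.m.j z.1 s - β.m.j z.1 s * β.W a z.1 := by
      rw [mul_add, add_mul, Wz78.g_j (hg z a) s, add_sub_add_right_eq_sub]
    exact e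

theorem adm_cf (y : SP D β) : D.Adm (cf y) :=
  ⟨⟨h.hm, h.conn_cf y, sm_fst (h.sm_Φ.add y.2.2.1), fun z =>
    (map_add (pv D β z.1) _ _).trans (congrArg₂ (· + ·) (h.pv_Φ _) (y.2.2.2.2 _)), .inl rfl⟩,
    fun x => (congrArg₂ (· + ·) (h.tmp x) (map_zero opL)).trans (add_zero _)⟩

theorem cf (y : SP D β) : Hy D (cf y) := ⟨h.toHY, h.adm_cf y⟩

/-- the gradient lies in the bundles -/
theorem pc_gA : pc D β x ((YF.z0 D).gA β x) = (YF.z0 D).gA β x := by
  have hB := h.hB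
  have v : Vol (fun a b => D.B.P a b (x, 0)) fun a b c d => D.B.o a b c d (x, 0) :=
    ⟨hB.pr _, hB.rk _, fun a b c d => hB.o12 a b c d _, fun a b c d => hB.o23 a b c d _,
      fun a b c d => hB.o34 a b c d _, fun a b c d => hB.oP a b c d _, hB.onm _⟩
  obtain ⟨ζ, e⟩ : ∃ ζ, (YF.z0 D).gA β x = WithLp.toLp 2 fun a => (1 / 2 : ℝ) •
      idx (sdm (fun a b => D.B.P a b (x, 0)) fun a b c d => D.B.o a b c d (x, 0)) (β.m.pg x) ζ
        (none, some a) :=
    ⟨_, congrArg (fun η : Fm (Option κ × Option κ) β.m.A =>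
      WithLp.toLp 2 fun a : κ => (1 / 2 : ℝ) • η (none, some a))
      ((sub_zero _).trans (map_sub ((cy β).m.p2 D.B (x, 0)) _ _).symm)⟩
  rw [e]
  refine pc_fix (fun a => Submodule.smul_mem _ _ (pg_g (T_idx (prj_pg.idem x) _ _))) fun a => ?_
  have := (v.sd_idx (β.m.pg x) ζ).pr' none (some a)
  rw [Fintype.sum_option] at this
  have e2 := ((zero_add _).symm.trans (congrArg (· + _) (zero_smul ℝ _).symm)).trans this
  simp only [smul_comm _ (1 / 2 : ℝ), ← Finset.smul_sum]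
  exact congrArg _ e2

theorem pv_gP : pv D β x ((YF.z0 D).gP β x) = (YF.z0 D).gP β x := by
  have e := Wz78.dir_pp h.hB h.hm h.hC (h.adm.sm (x, 0))
  rw [funext h.adm.pos] at e
  have e2 := congrArg (fun T : En (Fin β.m.N) => T ((cy β).eD D.G pt0 (x, 0)))
    (Wz78.pp_rho h.hB h.hm none (x, 0))
  refine (map_neg _ _).trans (congrArg Neg.neg (e2.trans (congrArg (β.m.ρ none x) ?_)))
  exact (congrArg _ (sub_zero _)).trans (e.symm.trans (sub_zero _).symm)

end Hy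

end Crest.Agent.X212.Lin97
end
end

-- ▼ part X212/Lin97/Gop
section

/-! Row 212, CRIT-LIN (helper97): the gauge operator on the cross-section and its adjoint. -/

set_option autoImplicit false
set_option linter.unusedSectionVars false
noncomputable section
open scoped Manifold ContDiff Topology InnerProductSpace
open MeasureTheory Set Function Filter

namespace Crest.Agent.X212.Lin97
open An An.Pre Cyf70 Nd18 Crt72 Sob92 Map77
open Wz78 (nab nabE SA)

variable {E3 : Type} [NormedAddCommGroup E3] [NormedSpace ℝ E3] [FiniteDimensional ℝ E3]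
  [MeasurableSpace E3] [BorelSpace E3]
  {H3 : Type} [TopologicalSpace H3] {I3 : ModelWithCorners ℝ E3 H3} [I3.Boundaryless]
  {Y : Type} [TopologicalSpace Y] [ChartedSpace H3 Y] [IsManifold I3 ∞ Y] [T2Space Y]
  [MeasurableSpace Y] [BorelSpace Y] [SecondCountableTopology Y] [CompactSpace Y]
  {κ : Type} [Fintype κ] {lam : Type} [Fintype lam]
  {D : YD I3 Y κ lam} {β : YC Y κ lam} {x : Y}

variable (D β) in
/-- the coefficients of the gauge operator -/
def cut0 : Op Y κ β.m.A (Cf κ (Fin β.m.N)) :=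
  cut D.F.toPre β.m.pg (ps (pc D β) (pv D β)) (fun a x => σ0 (fun a b => D.F.P a b x) a)
    fun x => l0 (base (cn β) (fun y => (2 : ℝ) • β.Φ y) x)

variable (D β) in
/-- `ξ ↦ (-∇ ξ, 2 ξ Φ)` -/
abbrev A0 : Op Y κ β.m.A (Cf κ (Fin β.m.N)) :=
  ⟨β.m.pg, ps (pc D β) (pv D β), (cut0 D β).σ, (cut0 D β).B⟩

theorem pc_ea (a : κ) (ξ : β.m.A) : pc D β x (ea _ (fun a b => D.F.P a b x) a (β.m.pg x ξ)) =
    ea _ (fun a b => D.F.P a b x) a (β.m.pg x ξ) :=
  pc_fix (fun _ => Submodule.smul_mem _ _ (Wz78.pg_mem x ξ)) fun b => by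
    simp only [ea_apply, smul_smul, ← Finset.sum_smul, (Wz78.frPr D.F x).idem]

theorem σ_A0 (a : κ) (ξ : β.m.A) :
    (cut0 D β).σ a x ξ = -i1 _ _ (ea _ (fun a b => D.F.P a b x) a (β.m.pg x ξ)) :=
  ext2 (by simp [cut0, cut, σ0, pc_ea]) (by simp [cut0, cut, σ0])

theorem cliffL_A0 : (A0 D β).CliffL D.F := fun a b x v w => by
  have e : ∀ a b, ∑ c, D.F.P c a x * D.F.P c b x = D.F.P a b x := fun a b => by
    simp only [← (Wz78.frPr D.F x).idem a b, fun c => D.F.P_symm c a x]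
  simp only [σ_A0, inner_neg_neg, inner2, f2_i1, s2_i1, inner_zero_left, add_zero,
    inner_fm (X := β.m.A), ea_apply, real_inner_smul_left, real_inner_smul_right, ← mul_assoc,
    mul_comm (D.F.P _ b x)]
  rw [← prj_pg.symm, prj_pg.idem]
  simp only [mul_right_comm _ ⟪β.m.pg x v, w⟫_ℝ, ← Finset.sum_mul, e]
  ring

namespace Hy
variable (h : Hy D β)
include h

theorem good : ∃ C, D.F.Tame C ∧ (A0 D β).Good D.F C := by
  let K := cb (fun _ : Unit => D.F.toPre) univ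
  have hP : ∀ a b, K.mem fun _ => D.F.P a b := fun a b _ _ => Cb_of_compact (D.F.P_sm a b)
  have o := Cls.op.cut (K := K) (p := fun _ => β.m.pg) (q := fun _ => ps (pc D β) (pv D β))
    (σ := fun _ a x => σ0 (fun a b => D.F.P a b x) a)
    (B := fun _ x => l0 (base (cn β) (fun y => (2 : ℝ) • β.Φ y) x))
    (fun _ _ => h.cb_pg) (fun _ _ => Cb_ps h.cb_pc h.cb_pv)
    (fun a => Cls.neg (Cls.comp (K.const _) (Cls.tp fun b => Cls.smul (hP b a) (K.const _))))
    (Cls.clm _ (Cls.base (fun a _ _ => Cb_of_compact (h.sm_cn a))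
      fun _ _ => Cb_smul (Cb_const _) h.cb_Φ))
  refine good_of h.tame.choose_spec (o.p () trivial) (o.q () trivial) (fun a => o.σ a () trivial)
    (o.B () trivial) (Alg.cut _ prj_pg (prj_pc.ps h.prj_pv) fun a x => ?_)
  ext1 v
  refine ext2 (fm_ext fun s => ?_) (by simp [σ0])
  have e : ∑ b, D.F.P a b x * D.F.P s b x = D.F.P s a x := by
    simp only [← (Wz78.frPr D.F x).idem s a, D.F.P_symm a, mul_comm]
  simp [σ0, ea_apply, smul_smul, ← Finset.sum_smul, e]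

theorem app_A0 (ξ : Sec I3 β.m.pg) (x : Y) : (A0 D β).app D.F ξ.1 x =
    i1 _ _ (dga D β ξ.1 x) + i2 _ _ ((2 : ℝ) • dgp β ξ.1 x) := by
  refine (op_cut D.F.toPre h.sm_pg ξ.2.1 ξ.2.2.2 x).trans ?_
  have e : D.F.op (fun a x => σ0 (fun a b => D.F.P a b x) a)
      (fun x => l0 (base (cn β) (fun y => (2 : ℝ) • β.Φ y) x)) ξ.1 x =
      i1 _ _ (dga D β ξ.1 x) + i2 _ _ ((2 : ℝ) • dgp β ξ.1 x) := by
    refine ext2 (fm_ext fun a => ?_) (by simp [Pre.op, σ0, fp_l0, dgp])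
    simp [Pre.op, σ0, fa_l0, ea_apply, Ell97.sum_P_D, dga, nab, an, Md.adW, cn, ← D_def, add_comm]
  rw [e]
  exact ext2 (by simp [h.pc_dga]) (by simp [h.pv_dgp])

theorem sm_sga {α : Y → Fm κ β.m.A} (hα : Sm I3 α) : Sm I3 (sga D β α) := fun x =>
  SA.sum _ fun a _ => (Wz78.sm_nab h.sm_an a (fun y => SA.clm (pj _ a) (hα y)) x).add
    (SA.smul (D.F.dv_sm a x) (SA.clm (pj _ a) (hα x)))

theorem sm_sgp {φ : Y → β.m.V} (hφ : Sm I3 φ) : Sm I3 (sgp β φ) := fun x =>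
  SA.app (h.sm_pg x) (SA.clm hsL (Wz78.sa_rk1 (hφ x) (h.sm_Φ x)))

theorem sga_g {α : Y → Fm κ β.m.A} (hα : Sm I3 α) (hc : ∀ y, pc D β y (α y) = α y) (x : Y) :
    sga D β α x ∈ β.m.gS x :=
  Submodule.sum_mem _ fun a _ => Submodule.add_mem _
    (h.nab_g (fun y => SA.clm (pj _ a) (hα y)) (fun y => pc_g (hc y) a) a x)
    (Submodule.smul_mem _ _ (pc_g (hc x) a))

theorem adj_A0 (w : Sec I3 (ps (pc D β) (pv D β))) : ((A0 D β).adj D.F).app D.F w.1 =
    fun x => sga D β (fun y => fa (w.1 y)) x + (2 : ℝ) • sgp β (fun y => fp (w.1 y)) x := by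
  obtain ⟨C, hF, hA⟩ := h.good
  have s1 : Sm I3 fun y => fa (w.1 y) := fun y => SA.clm fa (w.2.1 y)
  have s2 : Sm I3 fun y => fp (w.1 y) := fun y => SA.clm fp (w.2.1 y)
  have s3 := (h.sm_sga s1).add ((show Sm I3 fun _ => (2 : ℝ) from contMDiff_const).smul (h.sm_sgp s2))
  refine adj_eq hF hA w ⟨_, sec_mk s3 fun x => Wz78.pg_of_mem (Submodule.add_mem _
    (h.sga_g s1 (fun y => maps_f2 y _ (w.2.2.2 y)) x)
    (Submodule.smul_mem _ _ (Wz78.pg_mem x _)))⟩ fun u => ?_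
  have s4 : ∀ a, Sm I3 fun y => ⟪u.1 y, fa (w.1 y) a⟫_ℝ := fun a y =>
    SA.inner (u.2.1 y) (SA.clm (pj _ a) (s1 y))
  have c := fun a => HasCompactSupport.of_compactSpace fun y => ⟪u.1 y, fa (w.1 y) a⟫_ℝ
  have i := Wz78.integral_dvg (F := D.F) s4 c
  refine Eq.trans ?_ ((integral_sub (D.F.integrable_inner u.2.1.continuous u.2.2.1 s3.continuous)
    (Wz78.integ_dvg s4 c)).trans (by rw [i, sub_zero]; rfl))
  refine integral_congr_ae (.of_forall fun x => ?_)
  have e := fun a => Wz78.dv_inner (e := D.F.e) (A := an β) a (h.sk_an a x) (u.2.1 x)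
    (SA.clm (pj _ a) (s1 x))
  simp only [pj_apply] at e
  simp only [h.app_A0, inner2, map_add, f2_i1, f2_i2, s2_i1, s2_i2, add_zero, zero_add,
    Wz78.dvg, e, Pi.add_apply, inner_add_right, sga, sgp, dga, dgp, Md.q, inner_sum,
    real_inner_smul_left, real_inner_smul_right, ← prj_pg.symm, u.2.2.2 x, Wz78.inner_rk1,
    inner_fm (X := β.m.A), inner_neg_left, Finset.sum_add_distrib, Finset.sum_neg_distrib,
    Pi.smul_apply']
  ring

variable (j : ℕ)

theorem rep_A0 : D.F.Rep ((A0 D β).H D.F j) ((A0 D β).app D.F) :=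
  (rep_OpH h.good.choose_spec.2 j).1

theorem rep_A1 : D.F.Rep (k := j + 1) (j := j) (p := ps (pc D β) (pv D β)) (q := β.m.pg)
    (Ell97.Hs D.F (A0 D β) j) (((A0 D β).adj D.F).app D.F) :=
  (rep_OpH (Ell97.good_adj h.good.choose_spec.1 h.good.choose_spec.2).choose_spec j).1

theorem rep_dga : D.F.Rep (D.F.lift (j + 1) j β.m.pg (pc D β) (dga D β)) (dga D β) :=
  rep_lift (RepT_comp rep_fH (h.rep_A0 j)) fun u => funext fun x => by simp [h.app_A0]

theorem rep_dgp : D.F.Rep (D.F.lift (j + 1) j β.m.pg (pv D β) (dgp β)) (dgp β) :=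
  rep_lift (RepT_smul (1 / 2 : ℝ) (RepT_comp rep_sH (h.rep_A0 j))) fun u => funext fun x => by
    simp [h.app_A0, smul_smul]

theorem rep_sga : D.F.Rep (D.F.lift (j + 1) j (pc D β) β.m.pg (sga D β)) (sga D β) :=
  rep_lift (RepT_comp (h.rep_A1 j) rep_iH1) fun u => funext fun x =>
    (congrFun (h.adj_A0 ⟨_, RepT_mem (rep_iH1 (F := D.F.toPre) (k := 0)) u⟩) x).trans (by
      simp [sgp, Md.q, rk1])

theorem rep_sgp : D.F.Rep (D.F.lift (j + 1) j (pv D β) β.m.pg (sgp β)) (sgp β) :=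
  rep_lift (RepT_smul (1 / 2 : ℝ) (RepT_comp (h.rep_A1 j) rep_iH2)) fun u => funext fun x =>
    (congrArg ((1 / 2 : ℝ) • ·)
      (congrFun (h.adj_A0 ⟨_, RepT_mem (rep_iH2 (F := D.F.toPre) (k := 0)) u⟩) x)).trans (by
      simp [sga, nab, smul_smul])

/-- parallel sections have constant length -/
theorem norm_par {ξ : Y → β.m.A} (hs : Sm I3 ξ) (h0 : dga D β ξ = 0) (x y : Y) :
    ‖ξ x‖ = ‖ξ y‖ := by
  have := h.conn
  have e : ∀ a z, nab I3 D.F.e (an β) a ξ z = 0 := fun a z =>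
    neg_eq_zero.1 (congrArg (fun α : Fm κ β.m.A => α a) (congrFun h0 z))
  obtain ⟨t, ht⟩ := Abel74.const_of_D (F := D.F) isOpen_univ isPreconnected_univ
    (fun x _ => SA.inner (hs x) (hs x)) fun a x _ => by
      rw [D_def, Wz78.dv_inner (A := an β) a (h.sk_an a x) (hs x) (hs x), e]
      simp
  rw [norm_eq_sqrt_real_inner, norm_eq_sqrt_real_inner, ht x trivial, ht y trivial]

theorem norm_g {ξ : β.m.A} (hξ : ξ ∈ β.m.gS x) : ‖opL ξ (β.Φ x)‖ = ‖ξ‖ / 4 * ‖β.Φ x‖ := by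
  have e : ‖opL ξ (β.Φ x)‖ = ‖ξ‖ / 4 * ‖β.m.p x (β.Φ x)‖ :=
    (Std94.norm_g_apply h.hB (h.px x) hξ (β.Φ x) :)
  rw [e, h.p_pv (h.pv_Φ x)]

/-- a parallel section of `g` spans a parallel line -/
theorem lin_of (ξ : Sec I3 β.m.pg) (h0 : dga D β ξ.1 = 0) (hx : ξ.1 x ≠ 0) :
    Lin D.Z (cy β) univ := by
  have n : ∀ y, ⟪ξ.1 y, ξ.1 y⟫_ℝ = ‖ξ.1 x‖ ^ 2 := fun y => by
    rw [real_inner_self_eq_norm_sq, h.norm_par ξ.2.1 h0 y x]
  have n0 : ‖ξ.1 x‖ ^ 2 ≠ 0 := pow_ne_zero _ (norm_ne_zero_iff.2 hx)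
  have e : ∀ a z, nab (IC I3) D.Z.e (fun a z => β.m.adW β.W a z.1) a (fun z => ξ.1 z.1) z = 0 := by
    rintro (_ | a) z
    · rw [nab_cy0 _ ξ.2.1, Md.adW, h.tmp, ← Wz78.adcL_apply, map_zero]; rfl
    · rw [nab_cy _ ξ.2.1]
      exact neg_eq_zero.1 (congrArg (fun α : Fm κ β.m.A => α a) (congrFun h0 z.1))
  let π : Y × ℝ → CL β.m.A β.m.A := fun z => (‖ξ.1 x‖ ^ 2)⁻¹ • rk1 (ξ.1 z.1) (ξ.1 z.1)
  have s := sm_fst ξ.2.1
  have sπ : Sm (IC I3) π := fun z => (show SA (IC I3) (fun _ => (‖ξ.1 x‖ ^ 2)⁻¹) z from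
    contMDiffAt_const).smul (SA.app (SA.clm rkL (s z)) (s z))
  have a1 : ∀ z v, π z v = ((‖ξ.1 x‖ ^ 2)⁻¹ * ⟪ξ.1 z.1, v⟫_ℝ) • ξ.1 z.1 := fun z v => by
    simp only [π, smul_apply, Wz78.rk1_apply, smul_smul]
  have a2 : ∀ z (r : ℝ), π z (r • ξ.1 z.1) = r • ξ.1 z.1 := fun z r => by
    rw [map_smul, a1, n, inv_mul_cancel₀ n0, one_smul]
  have a3 : ∀ z, π z * π z = π z := fun z => ContinuousLinearMap.ext fun v => by
    rw [mul_apply_eq_comp, a1 z v, a2]
  have a4 : ∀ z, Sym (π z) := fun z v w => by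
    simp only [a1, real_inner_smul_left, real_inner_smul_right, real_inner_comm v]; ring
  refine ⟨π, sπ.contMDiffOn, fun z _ => ⟨a4 z, a3 z, ?_, ?_, fun a => ?_⟩⟩
  · have : β.m.pg z.1 * π z = π z := ContinuousLinearMap.ext fun v => by
      rw [mul_apply_eq_comp, a1, map_smul, ξ.2.2.2]
    exact this
  · have : LinearMap.trace ℝ _ (π z : β.m.A →ₗ[ℝ] β.m.A) = 1 := by
      have := LinearMap.trace_smulRight (R := ℝ) (innerSL ℝ (ξ.1 z.1) : β.m.A →ₗ[ℝ] ℝ) (ξ.1 z.1)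
      refine (map_smul _ _ _).trans ((congrArg _ (this.trans (n z.1))).trans (inv_mul_cancel₀ n0))
    exact this
  · refine Wz78.proj_par (e := D.Z.e) (A := fun a z => β.m.adW β.W a z.1) (sπ z) a3 a4 a
      (Wz78.adc_skw (h.hC.sk a z)) fun v => ?_
    simp only [a1]
    rw [Wz78.nab_smul a (SA.mul contMDiffAt_const (SA.inner (s z) contMDiffAt_const)) (s z), e,
      smul_zero, add_zero, ← a1, a2]

theorem ker_A0 (hn : (∃ y, β.Φ y ≠ 0) ∨ ¬Lin D.Z (cy β) univ) :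
    Ell97.kerS D.F (A0 D β) = ⊥ := by
  refine (Submodule.eq_bot_iff _).2 fun ξ hξ => Subtype.ext (funext fun x => by_contra fun hx => ?_)
  have e := fun y => (h.app_A0 ξ y).symm.trans (congrFun hξ y)
  have e1 : dga D β ξ.1 = 0 := funext fun y => by simpa using congrArg (f2 _ _) (e y)
  rcases hn with ⟨y, hy⟩ | hn
  · have e2 : opL (ξ.1 y) (β.Φ y) = 0 := by simpa [dgp] using congrArg (s2 _ _) (e y)
    have e3 := h.norm_g (pg_g (ξ.2.2.2 y))
    rw [e2, norm_zero, h.norm_par ξ.2.1 e1 y x] at e3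
    exact absurd e3 (mul_pos (by have := norm_pos_iff.2 hx; positivity) (norm_pos_iff.2 hy)).ne
  · exact hn (h.lin_of ξ e1 hx)

theorem bij (hn : (∃ y, β.Φ y ≠ 0) ∨ ¬Lin D.Z (cy β) univ) :
    Bijective (sg D β j ∘L d0 D β 1 (j + 1)) := by
  obtain ⟨C, hF, hA⟩ := h.good
  have e := RepT_eq (RepT_add (RepT_smul (1 / 4 : ℝ) (RepT_comp (h.rep_sga j) (h.rep_dga (j + 1))))
      (RepT_comp (h.rep_sgp j) (h.rep_dgp (j + 1))))
    (RepT_smul (1 / 4 : ℝ) (RepT_comp (h.rep_A1 j) (h.rep_A0 (j + 1)))) fun u => funext fun x => by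
      have e : ((A0 D β).adj D.F).app D.F ((A0 D β).app D.F u.1) x = _ :=
        congrFun (h.adj_A0 ⟨_, RepT_mem (h.rep_A0 0) u⟩) x
      simp only [h.app_A0, map_add, f2_i1, f2_i2, s2_i1, s2_i2, add_zero, zero_add] at e
      simp only [Pi.add_apply, Pi.smul_apply, e, sgp, Md.q, ← rkL_apply, map_smul, smul_apply]
      module
  have b := (MulAction.bijective (Units.mk0 (1 / 4 : ℝ) (by norm_num))).comp
    (Ell97.LL_bij hF hA cliffL_A0 (h.ker_A0 hn) j)
  convert b using 1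
  funext η
  refine Eq.trans ?_ (DFunLike.congr_fun e η)
  simp [sg, d0]

end Hy

end Crest.Agent.X212.Lin97
end
end

-- ▼ part X212/Lin97/Emb

/-! Row 212, CRIT-LIN (helper97): the total space and the linear axioms. -/

set_option autoImplicit false
set_option linter.unusedSectionVars false
noncomputable section
open scoped Manifold ContDiff Topology InnerProductSpace
open MeasureTheory Set Function Filter

namespace Crest.Agent.X212.Lin97
open An An.Pre Cyf70 Nd18 Crt72 Sob92 Map77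
open Wz78 (nab nabE SA)

variable {E3 : Type} [NormedAddCommGroup E3] [NormedSpace ℝ E3] [FiniteDimensional ℝ E3]
  [MeasurableSpace E3] [BorelSpace E3]
  {H3 : Type} [TopologicalSpace H3] {I3 : ModelWithCorners ℝ E3 H3} [I3.Boundaryless]
  {Y : Type} [TopologicalSpace Y] [ChartedSpace H3 Y] [IsManifold I3 ∞ Y] [T2Space Y]
  [MeasurableSpace Y] [BorelSpace Y] [SecondCountableTopology Y] [CompactSpace Y]
  {κ : Type} [Fintype κ] {lam : Type} [Fintype lam]
  {D : YD I3 Y κ lam} {β : YC Y κ lam} {x : Y} {c : ℝ} {j k : ℕ}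

section pt
variable {N : ℕ}
@[simp] theorem fa_eA (α : Fm κ (HS (Fin N))) : fa (eA κ N α) = up κ _ α := rfl
@[simp] theorem fp_eA (α : Fm κ (HS (Fin N))) : fp (eA κ N α) = 0 := rfl
@[simp] theorem fa_eP (φ : Eu (Fin N)) : fa (eP κ N φ) = 0 := rfl
@[simp] theorem fp_eP (φ : Eu (Fin N)) : fp (eP κ N φ) = φ := rfl
@[simp] theorem fa_eG (m : HS (Fin N)) : fa (eG κ N m) = ij _ none m := rfl
@[simp] theorem fp_eG (m : HS (Fin N)) : fp (eG κ N m) = 0 := rfl
@[simp] theorem dw_up (α : Fm κ (HS (Fin N))) : dw κ _ (up κ _ α) = α := rfl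
@[simp] theorem dw_ij (m : HS (Fin N)) : dw κ _ (ij _ none m) = 0 := fm_ext fun a => by simp

theorem cf_ext {u v : Cf (Option κ) (Fin N)} (h1 : fa u none = fa v none)
    (h2 : ∀ a, fa u (some a) = fa v (some a)) (h3 : fp u = fp v) : u = v :=
  ext2 (fm_ext fun a => by cases a; exacts [h1, h2 _]) h3

variable (κ N) in
/-- the components -/
def rA : CL (Cf (Option κ) (Fin N)) (Fm κ (HS (Fin N))) := dw κ _ ∘L fa
variable (κ N) in
def rG : CL (Cf (Option κ) (Fin N)) (HS (Fin N)) := pj _ none ∘L fa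
@[simp] theorem rA_apply (w : Cf (Option κ) (Fin N)) : rA κ N w = dw κ _ (fa w) := rfl
@[simp] theorem rG_apply (w : Cf (Option κ) (Fin N)) : rG κ N w = fa w none := rfl

theorem inner_eA (α : Fm κ (HS (Fin N))) (w : Cf (Option κ) (Fin N)) :
    ⟪eA κ N α, w⟫_ℝ = 1 * ⟪α, rA κ N w⟫_ℝ := by
  rw [inner2]; simp [inner_fm (X := HS (Fin N)), Fintype.sum_option]

theorem inner_eP (φ : Eu (Fin N)) (w : Cf (Option κ) (Fin N)) :
    ⟪eP κ N φ, w⟫_ℝ = 1 * ⟪φ, fp w⟫_ℝ := by rw [inner2]; simp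

theorem inner_eG (m : HS (Fin N)) (w : Cf (Option κ) (Fin N)) :
    ⟪eG κ N m, w⟫_ℝ = 1 * ⟪m, rG κ N w⟫_ℝ := by
  rw [inner2]; simp [inner_fm (X := HS (Fin N)), Fintype.sum_option]

end pt

theorem maps_eA : Maps (pc D β) (ph D β) fun _ => eA κ β.m.N := fun x α e =>
  cf_ext (by simp [fa_ph_none]) (fun a => by simp [fa_ph_some, e]) (by simp [fp_ph])
theorem maps_eP : Maps (pv D β) (ph D β) fun _ => eP κ β.m.N := fun x α e =>
  cf_ext (by simp [fa_ph_none]) (fun a => by simp [fa_ph_some]) (by simp [fp_ph, e])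
theorem maps_eG : Maps β.m.pg (ph D β) fun _ => eG κ β.m.N := fun x α e =>
  cf_ext (by simp [fa_ph_none, e]) (fun a => by simp [fa_ph_some]) (by simp [fp_ph])
theorem maps_rA : Maps (ph D β) (pc D β) fun _ => rA κ β.m.N := fun x w e =>
  fm_ext fun a => by rw [rA_apply, ← fa_ph_some, e]; rfl
theorem maps_rP : Maps (ph D β) (pv D β) fun _ => fp := fun x w e => by rw [← fp_ph, e]
theorem maps_rG : Maps (ph D β) β.m.pg fun _ => rG κ β.m.N := fun x w e => by
  rw [rG_apply, ← fa_ph_none (D := D), e]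

theorem rep_eA : D.F.Rep (D.F.mulH j (pc D β) (ph D β) fun _ => eA κ _) fun u x => eA κ _ (u x) :=
  rep_mulH (Cb_const _) maps_eA
theorem rep_eP : D.F.Rep (D.F.mulH j (pv D β) (ph D β) fun _ => eP κ _) fun u x => eP κ _ (u x) :=
  rep_mulH (Cb_const _) maps_eP
theorem rep_eG : D.F.Rep (D.F.mulH j β.m.pg (ph D β) fun _ => eG κ _) fun u x => eG κ _ (u x) :=
  rep_mulH (Cb_const _) maps_eG
theorem rep_rA : D.F.Rep (D.F.mulH j (ph D β) (pc D β) fun _ => rA κ _) fun u x => rA κ _ (u x) :=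
  rep_mulH (Cb_const _) maps_rA
theorem rep_rP : D.F.Rep (D.F.mulH j (ph D β) (pv D β) fun _ => fp) fun u x => fp (u x) :=
  rep_mulH (Cb_const _) maps_rP
theorem rep_rG : D.F.Rep (D.F.mulH j (ph D β) β.m.pg fun _ => rG κ _) fun u x => rG κ _ (u x) :=
  rep_mulH (Cb_const _) maps_rG

theorem emb_apply (z : CC D β j × GG D β j) : emb D β c j z =
    c • D.F.mulH j _ _ (fun _ => eA κ _) z.1.1 + D.F.mulH j _ _ (fun _ => eP κ _) z.1.2 +
      c • D.F.mulH j _ _ (fun _ => eG κ _) z.2 := rfl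

theorem pt_apply (y : SP D β) : pt D β j y = (D.F.toH j _ y.1, D.F.toH j _ y.2) := rfl

variable (c) in
/-- the section of the total bundle -/
def embS (y : SP D β) (m : Sec I3 β.m.pg) : Sec I3 (ph D β) :=
  c • ⟨_, RepT_mem (rep_eA (j := 0)) y.1⟩ + ⟨_, RepT_mem (rep_eP (j := 0)) y.2⟩ +
    c • ⟨_, RepT_mem (rep_eG (j := 0)) m⟩

theorem embS_val (y : SP D β) (m : Sec I3 β.m.pg) (x : Y) : (embS c y m).1 x =
    c • eA κ _ (y.1.1 x) + eP κ _ (y.2.1 x) + c • eG κ _ (m.1 x) := rfl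

theorem emb_pt (y : SP D β) (m : Sec I3 β.m.pg) :
    emb D β c j (pt D β j y, D.F.toH j _ m) = D.F.toH j _ (embS c y m) := by
  simp only [emb_apply, pt_apply, RepT_toH rep_eA, RepT_toH rep_eP, RepT_toH rep_eG, embS, map_add,
    map_smul]

theorem dense_pt : DenseRange (pt D β j) := (D.F.dense_toH j _).prodMap (D.F.dense_toH j _)

theorem clm_ext3 {X : Type} [NormedAddCommGroup X] [NormedSpace ℝ X]
    {A B : CC D β j × GG D β k →L[ℝ] X}
    (h : ∀ y m, A (pt D β j y, D.F.toH k _ m) = B (pt D β j y, D.F.toH k _ m)) : A = B :=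
  ContinuousLinearMap.ext fun z => congrFun ((dense_pt.prodMap (D.F.dense_toH k _)).equalizer
    A.continuous B.continuous (funext fun w => h w.1 w.2)) z

variable (D β c j) in
/-- the inverse of `emb` -/
def inv : XX D β j →L[ℝ] CC D β j × GG D β j :=
  ((c⁻¹ • D.F.mulH j _ _ fun _ => rA κ _).prod (D.F.mulH j _ _ fun _ => fp)).prod
    (c⁻¹ • D.F.mulH j _ _ fun _ => rG κ _)

theorem inv_apply (w : XX D β j) : inv D β c j w =
    ((c⁻¹ • D.F.mulH j _ _ (fun _ => rA κ _) w, D.F.mulH j _ _ (fun _ => fp) w),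
      c⁻¹ • D.F.mulH j _ _ (fun _ => rG κ _) w) := rfl

theorem inv_emb (hc : c ≠ 0) (z : CC D β j × GG D β j) : inv D β c j (emb D β c j z) = z := by
  refine DFunLike.congr_fun (clm_ext3 (A := inv D β c j ∘L emb D β c j)
    (B := ContinuousLinearMap.id ℝ _) fun y m => ?_) z
  rw [ContinuousLinearMap.comp_apply, emb_pt, inv_apply,
    RepT_toH' rep_rA _ (c • y.1) (funext fun x => by simp [embS_val]),
    RepT_toH' rep_rP _ y.2 (funext fun x => by simp [embS_val]),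
    RepT_toH' rep_rG _ (c • m) (funext fun x => by simp [embS_val]), map_smul, map_smul,
    inv_smul_smul₀ hc, inv_smul_smul₀ hc]
  rfl

theorem emb_inv (hc : c ≠ 0) (w : XX D β j) : emb D β c j (inv D β c j w) = w := by
  rw [inv_apply, emb_apply, map_smul, map_smul, smul_inv_smul₀ hc, smul_inv_smul₀ hc]
  exact DFunLike.congr_fun (RepT_eq (RepT_add (RepT_add (RepT_comp rep_eA rep_rA)
    (RepT_comp rep_eP rep_rP)) (RepT_comp rep_eG rep_rG)) Rep_id fun u => funext fun x =>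
      cf_ext (by simp) (fun a => by simp) (by simp)) w

variable (D β j) in
/-- the total space as an isomorphism -/
def embE (hc : c ≠ 0) : (CC D β j × GG D β j) ≃L[ℝ] XX D β j :=
  ContinuousLinearEquiv.equivOfInverse (emb D β c j) (inv D β c j) (inv_emb hc) (emb_inv hc)

theorem emb_bij (hc : c ≠ 0) : Bijective (emb D β c j) := (embE D β j hc).bijective

theorem incl_emb (h : j ≤ k) (z : CC D β k × GG D β k) :
    D.F.incl k j _ (emb D β c k z) = emb D β c j (iC D β k j z.1, D.F.incl k j _ z.2) := by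
  simp only [emb_apply, map_add, map_smul, incl_mulH (Cb_const _) maps_eA h,
    incl_mulH (Cb_const _) maps_eP h, incl_mulH (Cb_const _) maps_eG h]
  rfl

theorem inner_emb (hc : c ≠ 0) (z z' : CC D β 0 × GG D β 0) :
    ⟪emb D β c 0 z, emb D β c 0 z'⟫_ℝ =
      c ^ 2 * ⟪z.1.1, z'.1.1⟫_ℝ + ⟪z.1.2, z'.1.2⟫_ℝ + c ^ 2 * ⟪z.2, z'.2⟫_ℝ := by
  have e1 := inner_rep (rep_eA (D := D) (β := β)) Rep_id Rep_id rep_rA 1 (fun _ _ _ => inner_eA _ _)
    z.1.1 (emb D β c 0 z')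
  have e2 := inner_rep (rep_eP (D := D) (β := β)) Rep_id Rep_id rep_rP 1 (fun _ _ _ => inner_eP _ _)
    z.1.2 (emb D β c 0 z')
  have e3 := inner_rep (rep_eG (D := D) (β := β)) Rep_id Rep_id rep_rG 1 (fun _ _ _ => inner_eG _ _)
    z.2 (emb D β c 0 z')
  simp only [ContinuousLinearMap.id_apply, one_mul] at e1 e2 e3
  conv_rhs => rw [← inv_emb hc z', inv_apply]
  rw [emb_apply z]
  simp only [inner_add_left, real_inner_smul_left, real_inner_smul_right, e1, e2, e3]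
  field_simp

theorem Hy.val_emb (h : Hy D β) (hk : 4 ≤ k) (z : CC D β k × GG D β k) (x : Y) :
    D.F.val k _ (emb D β c k z) x = c • eA κ _ (D.F.val k _ z.1.1 x) +
      eP κ _ (D.F.val k _ z.1.2 x) + c • eG κ _ (D.F.val k _ z.2 x) := by
  simp only [emb_apply, val_add, val_smul, Pi.add_apply, Pi.smul_apply,
    val_mulH h.sup hk (Cb_const _) maps_eA, val_mulH h.sup hk (Cb_const _) maps_eP,
    val_mulH h.sup hk (Cb_const _) maps_eG]

end Crest.Agent.X212.Lin97
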